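import Mathlib

namespace Vale.Agent.Results.P344.GateLowerBound

open Polynomial

/-- The root of unity `ζ_n = exp (2 π i / n)`. -/
noncomputable def zeta (n : ℕ) : ℂ := Complex.exp (2 * Real.pi * Complex.I / n)

/-- The `j`-th output of the unnormalised discrete Fourier transform `F_n`, as a function of the
input vector `x`: it is `∑ k, ζ_n ^ (j k) x_k`. -/
noncomputable def dftOut (n : ℕ) (j : Fin n) : (Fin n → ℂ) → ℂ :=
  fun x => ∑ k : Fin n, zeta n ^ ((j : ℕ) * (k : ℕ)) * x k

/-- `Avail n v t u`: the value `u` (a function of the input vector) may be used by gate number `t`: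
it is the constant `0`, an input `x_k`, or the value `v r` of an earlier gate `r < t`. -/
def Avail (n : ℕ) (v : ℕ → (Fin n → ℂ) → ℂ) (t : ℕ) (u : (Fin n → ℂ) → ℂ) : Prop :=
  u = (fun _ => 0) ∨ (∃ k : Fin n, u = fun x => x k) ∨ ∃ r, r < t ∧ u = v r

/-- `v 0, …, v (s-1)` are the values of the gates of a linear circuit with `s` gates: every gate
computes `u + w`, `u - w` or `c * u` from previously available values `u, w` (which may be
reused), with `c : ℂ` an arbitrary fixed scalar. -/
def IsCircuit (n s : ℕ) (v : ℕ → (Fin n → ℂ) → ℂ) : Prop :=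
  ∀ t, t < s → ∃ u w, Avail n v t u ∧ Avail n v t w ∧
    ((v t = fun x => u x + w x) ∨ (v t = fun x => u x - w x) ∨ ∃ c : ℂ, v t = fun x => c * u x)

/-- The circuit computes `F_n`: every output of the transform is one of the computed values. -/
def Computes (n s : ℕ) (v : ℕ → (Fin n → ℂ) → ℂ) : Prop :=
  ∀ j : Fin n, Avail n v s (dftOut n j)

/-! ### Cyclotomic input: rational dependencies between the rows of `F_n` -/

theorem zeta_prim {n : ℕ} (hn : n ≠ 0) : IsPrimitiveRoot (zeta n) n :=
  Complex.isPrimitiveRoot_exp n hn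

/-- the polynomial with coefficient vector q -/
noncomputable def polyOf {n : ℕ} (q : Fin n → ℚ) : ℚ[X] := ∑ j : Fin n, C (q j) * X ^ (j : ℕ)

theorem aeval_polyOf {n : ℕ} (q : Fin n → ℚ) (z : ℂ) :
    aeval z (polyOf q) = ∑ j : Fin n, (q j : ℂ) * z ^ (j : ℕ) := by
  simp [polyOf, map_sum]

theorem polyOf_coeff {n : ℕ} (q : Fin n → ℚ) (i : Fin n) : (polyOf q).coeff i = q i := by
  simp only [polyOf, finsetSum_coeff, coeff_C_mul, coeff_X_pow]
  rw [Finset.sum_eq_single i]
  · simp
  · intro b _ hb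
    have : (i : ℕ) ≠ b := fun h => hb (Fin.ext h.symm)
    simp [this]
  · simp

theorem polyOf_natDegree_lt {n : ℕ} (hn : 0 < n) (q : Fin n → ℚ) : (polyOf q).natDegree < n := by
  have : (polyOf q).natDegree ≤ n - 1 := by
    apply natDegree_sum_le_of_forall_le
    intro j _
    refine (natDegree_C_mul_X_pow_le _ _).trans ?_
    have := j.2
    omega
  omega

/-- primitive roots of the same order take the same rational values -/
theorem galois_lemma {m : ℕ} (hm : 0 < m) {z w : ℂ} (hz : IsPrimitiveRoot z m)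
    (hw : IsPrimitiveRoot w m) (P : ℚ[X]) (r : ℚ) (h : aeval z P = (r : ℂ)) :
    aeval w P = (r : ℂ) := by
  have h1 : aeval z (P - C r) = 0 := by
    simp [h]
  have h2 : minpoly ℚ z ∣ P - C r := minpoly.dvd ℚ z h1
  rw [← cyclotomic_eq_minpoly_rat hz hm] at h2
  obtain ⟨Q, hQ⟩ := h2
  have h3 : aeval w (cyclotomic m ℚ) = 0 := by
    rw [aeval_def, eval₂_eq_eval_map, map_cyclotomic]
    exact hw.isRoot_cyclotomic hm
  have h4 : aeval w (P - C r) = 0 := by
    rw [hQ, map_mul, h3, zero_mul]
  have h5 : aeval w P - (r : ℂ) = 0 := by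
    simpa using h4
  exact sub_eq_zero.mp h5

theorem prim_pow {n : ℕ} (hn : 0 < n) (k : ℕ) :
    IsPrimitiveRoot (zeta n ^ k) (n / Nat.gcd k n) := by
  have hz := zeta_prim (Nat.pos_iff_ne_zero.mp hn)
  have hg : 0 < Nat.gcd k n := Nat.gcd_pos_of_pos_right k hn
  have h1 : IsPrimitiveRoot (zeta n ^ (Nat.gcd k n)) (n / Nat.gcd k n) :=
    hz.pow_of_dvd (Nat.pos_iff_ne_zero.mp hg) (Nat.gcd_dvd_right k n)
  have h2 := h1.pow_of_coprime (k / Nat.gcd k n) (Nat.coprime_div_gcd_div_gcd hg)
  rw [← pow_mul, Nat.mul_div_cancel' (Nat.gcd_dvd_left k n)] at h2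
  exact h2

/-- the rows of the DFT matrix -/
noncomputable def row (n : ℕ) (j : Fin n) : Fin n → ℂ := fun k => zeta n ^ ((j : ℕ) * (k : ℕ))

/-- rational combinations of the inputs and of the rows -/
noncomputable def Psi (n : ℕ) : ((Fin n → ℚ) × (Fin n → ℚ)) →ₗ[ℚ] (Fin n → ℂ) where
  toFun p := fun k => (p.1 k : ℂ) + ∑ j : Fin n, (p.2 j : ℂ) * row n j k
  map_add' p p' := by
    funext k
    simp only [Prod.fst_add, Prod.snd_add, Pi.add_apply, Rat.cast_add, add_mul,
      Finset.sum_add_distrib]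
    ring
  map_smul' c p := by
    funext k
    simp only [Prod.smul_fst, Prod.smul_snd, Pi.smul_apply, smul_eq_mul, Rat.cast_mul,
      RingHom.id_apply, Rat.smul_def, mul_add, Finset.mul_sum, mul_assoc]

theorem Psi_apply (n : ℕ) (p : (Fin n → ℚ) × (Fin n → ℚ)) (k : Fin n) :
    Psi n p k = (p.1 k : ℂ) + aeval (zeta n ^ (k : ℕ)) (polyOf p.2) := by
  rw [aeval_polyOf]
  simp only [Psi, row, LinearMap.coe_mk, AddHom.coe_mk]
  congr 1
  apply Finset.sum_congr rfl
  intro j _
  rw [← pow_mul, mul_comm (k : ℕ)]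

theorem polyOf_eq_zero {n : ℕ} (hn : 0 < n) (q : Fin n → ℚ)
    (h : ∀ k : Fin n, aeval (zeta n ^ (k : ℕ)) (polyOf q) = 0) : q = 0 := by
  have hz := zeta_prim (Nat.pos_iff_ne_zero.mp hn)
  have hP : (polyOf q).map (algebraMap ℚ ℂ) = 0 := by
    apply eq_zero_of_natDegree_lt_card_of_eval_eq_zero' _
      (Finset.univ.image (fun k : Fin n => zeta n ^ (k : ℕ)))
    · intro z hzz
      obtain ⟨k, _, rfl⟩ := Finset.mem_image.mp hzz
      have := h k
      rwa [aeval_def, eval₂_eq_eval_map] at this
    · rw [Finset.card_image_of_injective]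
      · simp only [Finset.card_univ, Fintype.card_fin]
        exact lt_of_le_of_lt natDegree_map_le (polyOf_natDegree_lt hn q)
      · intro i j hij
        exact Fin.ext (hz.pow_inj i.2 j.2 hij)
  have hP' : polyOf q = 0 := by
    apply Polynomial.map_injective (algebraMap ℚ ℂ) (algebraMap ℚ ℂ).injective
    rw [hP, Polynomial.map_zero]
  funext i
  rw [← polyOf_coeff q i, hP']
  simp

theorem ker_bound {n : ℕ} (hn : 0 < n) :
    Module.finrank ℚ (LinearMap.ker (Psi n)) ≤ (Nat.divisors n).card := by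
  let f : (Nat.divisors n) → Fin n := fun d => ⟨(d : ℕ) % n, Nat.mod_lt _ hn⟩
  let Θ : LinearMap.ker (Psi n) →ₗ[ℚ] ((Nat.divisors n) → ℚ) :=
    (LinearMap.funLeft ℚ ℚ f) ∘ₗ (LinearMap.fst ℚ _ _) ∘ₗ (Submodule.subtype _)
  have hinj : Function.Injective Θ := by
    rw [injective_iff_map_eq_zero]
    rintro ⟨⟨r, q⟩, hp⟩ h0
    have hker : ∀ k : Fin n, (r k : ℂ) + aeval (zeta n ^ (k : ℕ)) (polyOf q) = 0 := by
      intro k
      have := congrFun (LinearMap.mem_ker.mp hp) k
      rwa [Psi_apply] at this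
    have hr0 : ∀ d : Nat.divisors n, r (f d) = 0 := fun d => congrFun h0 d
    have hr : r = 0 := by
      funext k
      have hg : Nat.gcd k n ∈ Nat.divisors n :=
        Nat.mem_divisors.mpr ⟨Nat.gcd_dvd_right _ _, Nat.pos_iff_ne_zero.mp hn⟩
      have h1 := hker (f ⟨_, hg⟩)
      rw [hr0] at h1
      have hpow : zeta n ^ ((f ⟨_, hg⟩ : Fin n) : ℕ) = zeta n ^ (Nat.gcd k n) := by
        have hz := zeta_prim (Nat.pos_iff_ne_zero.mp hn)
        show zeta n ^ (Nat.gcd k n % n) = _
        conv_rhs => rw [← Nat.mod_add_div (Nat.gcd k n) n]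
        rw [pow_add, pow_mul, hz.pow_eq_one, one_pow, mul_one]
      rw [hpow] at h1
      have h2 : aeval (zeta n ^ (Nat.gcd k n)) (polyOf q) = ((0 : ℚ) : ℂ) := by
        simpa using h1
      have hpr1 := prim_pow hn (Nat.gcd k n)
      rw [Nat.gcd_gcd_self_left_right] at hpr1
      have hpos : 0 < n / Nat.gcd k n :=
        Nat.div_pos (Nat.le_of_dvd hn (Nat.gcd_dvd_right _ _)) (Nat.gcd_pos_of_pos_right _ hn)
      have h3 := galois_lemma hpos hpr1 (prim_pow hn k) (polyOf q) 0 h2
      have h4 := hker k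
      rw [h3] at h4
      have : (r k : ℂ) = 0 := by simpa using h4
      exact_mod_cast this
    have hq : q = 0 := by
      apply polyOf_eq_zero hn
      intro k
      have := hker k
      rw [hr] at this
      simpa using this
    ext <;> simp [hr, hq]
  have := LinearMap.finrank_le_finrank_of_injective hinj
  simpa using this

/-! ### Circuits at the level of coefficient vectors -/

/-- availability at the level of coefficient vectors -/
def AvailC (n : ℕ) (a : ℕ → Fin n → ℂ) (t : ℕ) (b : Fin n → ℂ) : Prop :=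
  b = 0 ∨ (∃ k : Fin n, b = Pi.single k 1) ∨ ∃ r, r < t ∧ b = a r

/-- gate `t` is an addition or a subtraction -/
def IsAdd (n : ℕ) (a : ℕ → Fin n → ℂ) (t : ℕ) : Prop :=
  ∃ b c, AvailC n a t b ∧ AvailC n a t c ∧ (a t = b + c ∨ a t = b - c)

/-- gate `t` is a scalar multiplication -/
def IsSmul (n : ℕ) (a : ℕ → Fin n → ℂ) (t : ℕ) : Prop :=
  ∃ b, ∃ c : ℂ, AvailC n a t b ∧ a t = c • b

theorem Psi_eq (n : ℕ) (p : (Fin n → ℚ) × (Fin n → ℚ)) :
    Psi n p = ∑ k : Fin n, (p.1 k) • (Pi.single k (1 : ℂ) : Fin n → ℂ)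
      + ∑ j : Fin n, (p.2 j) • row n j := by
  funext k
  simp only [Psi, LinearMap.coe_mk, AddHom.coe_mk, Pi.add_apply, Finset.sum_apply, Pi.smul_apply,
    Rat.smul_def]
  congr 1
  rw [Finset.sum_eq_single k]
  · simp
  · intro b _ hb
    simp [hb.symm]
  · simp

open Classical in
theorem smul_count {n s : ℕ} (hn : 0 < n) (a : ℕ → Fin n → ℂ)
    (ho : ∀ j : Fin n, AvailC n a s (row n j)) :
    n ≤ ((Finset.range s).filter (fun t => ¬ IsAdd n a t)).card + (Nat.divisors n).card := by
  set S := (Finset.range s).filter (fun t => ¬ IsAdd n a t) with hS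
  set G : Finset (Fin n → ℂ) :=
    (Finset.univ.image (fun k : Fin n => (Pi.single k (1 : ℂ) : Fin n → ℂ))) ∪ S.image a with hG
  set W : Submodule ℚ (Fin n → ℂ) := Submodule.span ℚ (G : Set (Fin n → ℂ)) with hW
  have hsingle : ∀ k : Fin n, (Pi.single k (1 : ℂ) : Fin n → ℂ) ∈ W := by
    intro k
    apply Submodule.subset_span
    simp [hG]
  have hgate : ∀ r, r < s → a r ∈ W := by
    intro r
    induction r using Nat.strong_induction_on with
    | _ r ih =>
      intro hr
      have hav : ∀ b, AvailC n a r b → b ∈ W := by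
        rintro b (rfl | ⟨k, rfl⟩ | ⟨r', hr', rfl⟩)
        · exact W.zero_mem
        · exact hsingle k
        · exact ih r' hr' (lt_trans hr' hr)
      by_cases hadd : IsAdd n a r
      · obtain ⟨b, c, hb, hc', h | h⟩ := hadd
        · rw [h]; exact W.add_mem (hav b hb) (hav c hc')
        · rw [h]; exact W.sub_mem (hav b hb) (hav c hc')
      · apply Submodule.subset_span
        have : r ∈ S := by simp [hS, hr, hadd]
        simp only [hG, Finset.coe_union, Finset.coe_image, Set.mem_union, Set.mem_image]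
        exact Or.inr ⟨r, this, rfl⟩
  have hrow : ∀ j : Fin n, row n j ∈ W := by
    intro j
    rcases ho j with h | ⟨k, h⟩ | ⟨r, hr, h⟩
    · rw [h]; exact W.zero_mem
    · rw [h]; exact hsingle k
    · rw [h]; exact hgate r hr
  have hrange : LinearMap.range (Psi n) ≤ W := by
    rintro _ ⟨p, rfl⟩
    rw [Psi_eq]
    apply W.add_mem
    · exact W.sum_mem (fun k _ => W.smul_mem _ (hsingle k))
    · exact W.sum_mem (fun j _ => W.smul_mem _ (hrow j))
  have hfin : Module.Finite ℚ W := Module.Finite.span_of_finite ℚ (Finset.finite_toSet G)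
  have h1 : Module.finrank ℚ (LinearMap.range (Psi n)) ≤ Module.finrank ℚ W :=
    Submodule.finrank_mono hrange
  have h2 : Module.finrank ℚ W ≤ G.card := finrank_span_finset_le_card G
  have h3 : G.card ≤ n + S.card := by
    refine (Finset.card_union_le _ _).trans ?_
    refine add_le_add ?_ Finset.card_image_le
    refine Finset.card_image_le.trans ?_
    simp
  have h4 := LinearMap.finrank_range_add_finrank_ker (Psi n)
  have h5 : Module.finrank ℚ ((Fin n → ℚ) × (Fin n → ℚ)) = n + n := by
    simp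
  have h6 := ker_bound hn
  omega

/-- all coefficients are nonzero -/
def Full {n : ℕ} (b : Fin n → ℂ) : Prop := ∀ k, b k ≠ 0

theorem row_full {n : ℕ} (j : Fin n) : Full (row n j) := by
  intro k
  exact pow_ne_zero _ (Complex.exp_ne_zero _)

/-- a full vector that is available is the value of an earlier gate -/
theorem Full.gate {n : ℕ} (hn : 2 ≤ n) {a : ℕ → Fin n → ℂ} {t : ℕ} {b : Fin n → ℂ} (hb : Full b)
    (h : AvailC n a t b) : ∃ r, r < t ∧ b = a r := by
  rcases h with rfl | ⟨k, rfl⟩ | h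
  · exact absurd rfl (hb ⟨0, by omega⟩)
  · exfalso
    by_cases hk : (k : ℕ) = 0
    · apply hb ⟨1, by omega⟩
      rw [Pi.single_apply, if_neg]
      intro h
      have := congrArg Fin.val h
      simp at this
      omega
    · apply hb ⟨0, by omega⟩
      rw [Pi.single_apply, if_neg]
      intro h
      have := congrArg Fin.val h
      simp at this
      omega
  · exact h

open Classical in
theorem full_count {n s : ℕ} (hn : 2 ≤ n) (a : ℕ → Fin n → ℂ)
    (hc : ∀ t, t < s → IsAdd n a t ∨ IsSmul n a t)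
    (ho : ∀ j : Fin n, AvailC n a s (row n j)) :
    n ≤ ((Finset.range s).filter (fun t => IsAdd n a t ∧ Full (a t))).card := by
  have hex : ∀ j : Fin n, ∃ t, t < s ∧ ∃ c : ℂ, c ≠ 0 ∧ a t = c • row n j := by
    intro j
    obtain ⟨r, hr, h⟩ := (row_full j).gate hn (ho j)
    exact ⟨r, hr, 1, one_ne_zero, by rw [← h, one_smul]⟩
  let τ : Fin n → ℕ := fun j => Nat.find (hex j)
  have hτ : ∀ j, τ j < s ∧ ∃ c : ℂ, c ≠ 0 ∧ a (τ j) = c • row n j := fun j => Nat.find_spec (hex j)
  have hmin : ∀ j r, r < τ j → ¬ (r < s ∧ ∃ c : ℂ, c ≠ 0 ∧ a r = c • row n j) :=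
    fun j r hr => Nat.find_min (hex j) hr
  have hfull : ∀ j, Full (a (τ j)) := by
    intro j k
    obtain ⟨_, c, hc0, h⟩ := hτ j
    rw [h]
    exact mul_ne_zero hc0 (row_full j k)
  have hadd : ∀ j, IsAdd n a (τ j) := by
    intro j
    obtain ⟨hs, c, hc0, h⟩ := hτ j
    rcases hc _ hs with h' | ⟨b, l, hb, hl⟩
    · exact h'
    · exfalso
      have hl0 : l ≠ 0 := by
        rintro rfl
        rw [zero_smul] at hl
        exact hfull j ⟨0, by omega⟩ (by rw [hl]; rfl)
      have hbe : b = (l⁻¹ * c) • row n j := by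
        rw [mul_smul, ← h, hl, smul_smul, inv_mul_cancel₀ hl0, one_smul]
      have hbf : Full b := by
        intro k
        rw [hbe]
        exact mul_ne_zero (mul_ne_zero (inv_ne_zero hl0) hc0) (row_full j k)
      obtain ⟨r, hr, hbr⟩ := hbf.gate hn hb
      exact hmin j r hr ⟨lt_trans hr hs, l⁻¹ * c, mul_ne_zero (inv_ne_zero hl0) hc0,
        by rw [← hbr, hbe]⟩
  have hinj : Function.Injective τ := by
    intro i j hij
    obtain ⟨_, c, hc0, h⟩ := hτ i
    obtain ⟨_, c', hc0', h'⟩ := hτ j
    rw [hij, h'] at h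
    have e0 := congrFun h ⟨0, by omega⟩
    have e1 := congrFun h ⟨1, by omega⟩
    simp only [row, Pi.smul_apply, smul_eq_mul, mul_zero, pow_zero, mul_one] at e0 e1
    rw [e0] at e1
    have e2 := mul_left_cancel₀ hc0 e1
    exact (Fin.ext ((zeta_prim (by omega : n ≠ 0)).pow_inj j.2 i.2 e2)).symm
  calc n = (Finset.univ : Finset (Fin n)).card := by simp
    _ ≤ _ := by
      apply Finset.card_le_card_of_injOn τ
      · intro j _
        simp only [Finset.coe_filter, Finset.mem_range, Set.mem_ofPred_eq]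
        exact ⟨(hτ j).1, hadd j, hfull j⟩
      · exact hinj.injOn

open Classical in
theorem color_inv {n s : ℕ} (a : ℕ → Fin n → ℂ)
    (hc : ∀ t, t < s → IsAdd n a t ∨ IsSmul n a t) :
    ∀ t, t ≤ s → ∃ f : Fin n → ℕ,
      n ≤ (Finset.univ.image f).card + ((Finset.range t).filter (fun r => IsAdd n a r)).card ∧
      ∀ b, AvailC n a t b → ∃ c, ∀ k, b k ≠ 0 → f k = c := by
  intro t
  induction t with
  | zero =>
    intro _
    refine ⟨fun k => k, ?_, ?_⟩
    · rw [Finset.card_image_of_injective _ Fin.val_injective]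
      simp
    · rintro b (rfl | ⟨k, rfl⟩ | ⟨r, hr, _⟩)
      · exact ⟨0, fun k hk => absurd rfl hk⟩
      · refine ⟨k, fun k' hk' => ?_⟩
        by_contra hne
        apply hk'
        rw [Pi.single_apply, if_neg]
        intro h
        exact hne (by rw [h])
      · omega
  | succ t ih =>
    intro hts
    obtain ⟨f, hcard, hcol⟩ := ih (by omega)
    by_cases hadd : IsAdd n a t
    · obtain ⟨b, c, hb, hc', hsum⟩ := hadd
      obtain ⟨c1, h1⟩ := hcol b hb
      obtain ⟨c2, h2⟩ := hcol c hc'
      refine ⟨fun k => if f k = c2 then c1 else f k, ?_, ?_⟩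
      · have hsub : (Finset.univ.image f).erase c2 ⊆
            Finset.univ.image (fun k => if f k = c2 then c1 else f k) := by
          intro x hx
          obtain ⟨hx2, hx⟩ := Finset.mem_erase.mp hx
          obtain ⟨k, _, rfl⟩ := Finset.mem_image.mp hx
          exact Finset.mem_image.mpr ⟨k, Finset.mem_univ _, by simp [hx2]⟩
        have h3 := Finset.card_le_card hsub
        have h4 := Finset.pred_card_le_card_erase (s := Finset.univ.image f) (a := c2)
        have h5 : ((Finset.range (t + 1)).filter (fun r => IsAdd n a r)).card =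
            ((Finset.range t).filter (fun r => IsAdd n a r)).card + 1 := by
          rw [Finset.range_add_one, Finset.filter_insert, if_pos ⟨b, c, hb, hc', hsum⟩,
            Finset.card_insert_of_notMem (by simp)]
        omega
      · have hold : ∀ b' : Fin n → ℂ, (∃ c, ∀ k, b' k ≠ 0 → f k = c) →
            ∃ c, ∀ k, b' k ≠ 0 → (if f k = c2 then c1 else f k) = c := by
          rintro b' ⟨c0, h0⟩
          refine ⟨if c0 = c2 then c1 else c0, fun k hk => ?_⟩
          rw [h0 k hk]
        rintro b' (rfl | ⟨k, rfl⟩ | ⟨r, hr, rfl⟩)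
        · exact hold _ (hcol _ (Or.inl rfl))
        · exact hold _ (hcol _ (Or.inr (Or.inl ⟨k, rfl⟩)))
        · rcases Nat.lt_succ_iff_lt_or_eq.mp hr with hr' | rfl
          · exact hold _ (hcol _ (Or.inr (Or.inr ⟨r, hr', rfl⟩)))
          · refine ⟨c1, fun k hk => ?_⟩
            show (if f k = c2 then c1 else f k) = c1
            by_cases hbk : b k ≠ 0
            · rw [h1 k hbk]
              split_ifs <;> rfl
            · have hck : c k ≠ 0 := by
                intro hck
                apply hk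
                have hbk : b k = 0 := not_not.mp hbk
                rcases hsum with h | h <;> rw [h] <;> simp [hbk, hck]
              rw [h2 k hck, if_pos rfl]
    · refine ⟨f, ?_, ?_⟩
      · have h5 : ((Finset.range (t + 1)).filter (fun r => IsAdd n a r)).card =
            ((Finset.range t).filter (fun r => IsAdd n a r)).card := by
          rw [Finset.range_add_one, Finset.filter_insert, if_neg hadd]
        omega
      · rintro b' (rfl | ⟨k, rfl⟩ | ⟨r, hr, rfl⟩)
        · exact hcol _ (Or.inl rfl)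
        · exact hcol _ (Or.inr (Or.inl ⟨k, rfl⟩))
        · rcases Nat.lt_succ_iff_lt_or_eq.mp hr with hr' | rfl
          · exact hcol _ (Or.inr (Or.inr ⟨r, hr', rfl⟩))
          · rcases hc r (by omega) with h | ⟨b, l, hb, hl⟩
            · exact absurd h hadd
            · obtain ⟨c0, h0⟩ := hcol b hb
              refine ⟨c0, fun k hk => h0 k ?_⟩
              intro hbk
              apply hk
              rw [hl]
              simp [hbk]

open Classical in
theorem part_count {n s : ℕ} (hn : 2 ≤ n) (a : ℕ → Fin n → ℂ)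
    (hc : ∀ t, t < s → IsAdd n a t ∨ IsSmul n a t)
    (ho : ∀ j : Fin n, AvailC n a s (row n j)) :
    n ≤ ((Finset.range s).filter (fun t => IsAdd n a t ∧ ¬ Full (a t))).card + 2 := by
  have hex : ∃ t, t < s ∧ Full (a t) := by
    obtain ⟨r, hr, h⟩ := (row_full (⟨0, by omega⟩ : Fin n)).gate hn (ho _)
    exact ⟨r, hr, h ▸ row_full _⟩
  obtain ⟨ht1s, ht1f⟩ := Nat.find_spec hex
  have hmin : ∀ r, r < Nat.find hex → ¬ (r < s ∧ Full (a r)) := fun r hr => Nat.find_min hex hr
  set t1 := Nat.find hex with ht1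
  obtain ⟨f, hcard, hcol⟩ := color_inv a hc t1 ht1s.le
  have hadd : IsAdd n a t1 := by
    rcases hc _ ht1s with h' | ⟨b, l, hb, hl⟩
    · exact h'
    · exfalso
      have hbf : Full b := by
        intro k hbk
        apply ht1f k
        rw [hl]
        simp [hbk]
      obtain ⟨r, hr, hbr⟩ := hbf.gate hn hb
      exact hmin r hr ⟨lt_trans hr ht1s, hbr ▸ hbf⟩
  obtain ⟨b, c, hb, hc', hsum⟩ := hadd
  obtain ⟨c1, h1⟩ := hcol b hb
  obtain ⟨c2, h2⟩ := hcol c hc'
  have himg : (Finset.univ.image f).card ≤ 2 := by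
    have hsub : Finset.univ.image f ⊆ {c1, c2} := by
      intro x hx
      obtain ⟨k, _, rfl⟩ := Finset.mem_image.mp hx
      by_cases hbk : b k ≠ 0
      · simp [h1 k hbk]
      · have hbk : b k = 0 := not_not.mp hbk
        have hck : c k ≠ 0 := by
          intro hck
          apply ht1f k
          rcases hsum with h | h <;> rw [h] <;> simp [hbk, hck]
        simp [h2 k hck]
    exact (Finset.card_le_card hsub).trans Finset.card_le_two
  have hsub2 : (Finset.range t1).filter (fun r => IsAdd n a r) ⊆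
      (Finset.range s).filter (fun t => IsAdd n a t ∧ ¬ Full (a t)) := by
    intro r hr
    obtain ⟨hr1, hr2⟩ := Finset.mem_filter.mp hr
    have hr1 := Finset.mem_range.mp hr1
    refine Finset.mem_filter.mpr ⟨Finset.mem_range.mpr (lt_trans hr1 ht1s), hr2, fun hf => ?_⟩
    exact hmin r hr1 ⟨lt_trans hr1 ht1s, hf⟩
  have := Finset.card_le_card hsub2
  omega

open Classical in
theorem coeff_bound {n s : ℕ} (hn : 2 ≤ n) (a : ℕ → Fin n → ℂ)
    (hc : ∀ t, t < s → IsAdd n a t ∨ IsSmul n a t)
    (ho : ∀ j : Fin n, AvailC n a s (row n j)) :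
    3 * n ≤ s + (Nat.divisors n).card + 2 := by
  have h1 := smul_count (by omega : 0 < n) a ho
  have h2 := full_count hn a hc ho
  have h3 := part_count hn a hc ho
  have h4 : ((Finset.range s).filter (fun t => IsAdd n a t)).card +
      ((Finset.range s).filter (fun t => ¬ IsAdd n a t)).card = s := by
    rw [Finset.card_filter_add_card_filter_not]
    simp
  have h5 : ((Finset.range s).filter (fun t => IsAdd n a t ∧ Full (a t))).card +
      ((Finset.range s).filter (fun t => IsAdd n a t ∧ ¬ Full (a t))).card =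
      ((Finset.range s).filter (fun t => IsAdd n a t)).card := by
    rw [← Finset.filter_filter, ← Finset.filter_filter, Finset.card_filter_add_card_filter_not]
  omega

/-- the linear form with coefficient vector `b` -/
def lin {n : ℕ} (b : Fin n → ℂ) : (Fin n → ℂ) → ℂ := fun x => ∑ k : Fin n, b k * x k

theorem lin_injective {n : ℕ} : Function.Injective (lin (n := n)) := by
  intro b c h
  funext k
  have := congrFun h (Pi.single k 1)
  simpa [lin, Pi.single_apply] using this

theorem lin_zero {n : ℕ} : lin (0 : Fin n → ℂ) = fun _ => 0 := by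
  funext x; simp [lin]

theorem lin_single {n : ℕ} (k : Fin n) : lin (Pi.single k 1 : Fin n → ℂ) = fun x => x k := by
  funext x; simp [lin, Pi.single_apply]

theorem lin_add {n : ℕ} (b c : Fin n → ℂ) : lin (b + c) = fun x => lin b x + lin c x := by
  funext x; simp [lin, add_mul, Finset.sum_add_distrib]

theorem lin_sub {n : ℕ} (b c : Fin n → ℂ) : lin (b - c) = fun x => lin b x - lin c x := by
  funext x; simp [lin, sub_mul, Finset.sum_sub_distrib]

theorem lin_smul {n : ℕ} (l : ℂ) (b : Fin n → ℂ) : lin (l • b) = fun x => l * lin b x := by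
  funext x; simp [lin, Finset.mul_sum, mul_assoc]

theorem lin_row {n : ℕ} (j : Fin n) : lin (row n j) = dftOut n j := rfl

theorem result (n : ℕ) (hn : 2 ≤ n) (s : ℕ) (v : ℕ → (Fin n → ℂ) → ℂ)
    (hc : IsCircuit n s v) (ho : Computes n s v) :
    3 * n ≤ s + (Nat.divisors n).card + 2 := by
  -- every gate computes a linear form
  have hlin : ∀ t, t < s → ∃ b : Fin n → ℂ, v t = lin b := by
    intro t
    induction t using Nat.strong_induction_on with
    | _ t ih =>
      intro ht
      have hav : ∀ u, Avail n v t u → ∃ b : Fin n → ℂ, u = lin b := by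
        rintro u (rfl | ⟨k, rfl⟩ | ⟨r, hr, rfl⟩)
        · exact ⟨0, lin_zero.symm⟩
        · exact ⟨_, (lin_single k).symm⟩
        · exact ih r hr (lt_trans hr ht)
      obtain ⟨u, w, hu, hw, h⟩ := hc t ht
      obtain ⟨b, rfl⟩ := hav u hu
      obtain ⟨c, rfl⟩ := hav w hw
      rcases h with h | h | ⟨l, h⟩
      · exact ⟨b + c, by rw [h, lin_add]⟩
      · exact ⟨b - c, by rw [h, lin_sub]⟩
      · exact ⟨l • b, by rw [h, lin_smul]⟩
  classical
  let a : ℕ → Fin n → ℂ := fun t => if h : t < s then (hlin t h).choose else 0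
  have ha : ∀ t, t < s → v t = lin (a t) := by
    intro t ht
    simp only [a, dif_pos ht]
    exact (hlin t ht).choose_spec
  have hav : ∀ t, t ≤ s → ∀ u, Avail n v t u → ∃ b, u = lin b ∧ AvailC n a t b := by
    rintro t ht u (rfl | ⟨k, rfl⟩ | ⟨r, hr, rfl⟩)
    · exact ⟨0, lin_zero.symm, Or.inl rfl⟩
    · exact ⟨_, (lin_single k).symm, Or.inr (Or.inl ⟨k, rfl⟩)⟩
    · exact ⟨a r, ha r (lt_of_lt_of_le hr ht), Or.inr (Or.inr ⟨r, hr, rfl⟩)⟩
  apply coeff_bound hn a
  · intro t ht
    obtain ⟨u, w, hu, hw, h⟩ := hc t ht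
    obtain ⟨b, rfl, hb⟩ := hav t ht.le u hu
    obtain ⟨c, rfl, hc'⟩ := hav t ht.le w hw
    rw [ha t ht] at h
    rcases h with h | h | ⟨l, h⟩
    · exact Or.inl ⟨b, c, hb, hc', Or.inl (lin_injective (by rw [h, lin_add]))⟩
    · exact Or.inl ⟨b, c, hb, hc', Or.inr (lin_injective (by rw [h, lin_sub]))⟩
    · exact Or.inr ⟨b, l, hb, lin_injective (by rw [h, lin_smul])⟩
  · intro j
    obtain ⟨b, hb, hb'⟩ := hav s le_rfl _ (ho j)
    rw [← lin_row] at hb
    rw [lin_injective hb]
    exact hb'

end Vale.Agent.Results.P344.GateLowerBound
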